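import Mathlib

/-!
P011, block D4T.  The group lemmas in the form without actions.

`A` is the adjoint group, `N` a normal subgroup contained in the kernel of `cl : A →* Θ` with `Θ`
abelian, `P` the stabiliser of the standard plane, `H i` the centralisers of the involutions of
the standard plane.
-/

namespace Vale.Agent.P011.D4X

variable {A Θ ι : Type*} [Group A] [CommGroup Θ]

/-- The element `z` is central modulo `N`. -/
def Cen (N : Subgroup A) (z : A) : Prop := ∀ g : A, z * g * z⁻¹ * g⁻¹ ∈ N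

/-- The elements which are central modulo `N`. -/
def cenGrp (N : Subgroup A) [N.Normal] : Subgroup A :=
  (Subgroup.center (A ⧸ N)).comap (QuotientGroup.mk' N)

/-- The elements which commute with `z` modulo `N`. -/
def comGrp (N : Subgroup A) [N.Normal] (z : A) : Subgroup A :=
  (Subgroup.centralizer {(QuotientGroup.mk' N z)}).comap (QuotientGroup.mk' N)

section

variable {N : Subgroup A} [N.Normal]

theorem mem_comGrp {z g : A} : g ∈ comGrp N z ↔ z * g * z⁻¹ * g⁻¹ ∈ N := by
  rw [comGrp, Subgroup.mem_comap, Subgroup.mem_centralizer_singleton_iff,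
    ← QuotientGroup.eq_one_iff (N := N)]
  simp only [QuotientGroup.mk'_apply, QuotientGroup.mk_mul, QuotientGroup.mk_inv]
  rw [mul_inv_eq_one, mul_inv_eq_iff_eq_mul]
  exact eq_comm

theorem mem_comGrp_symm {z g : A} : g ∈ comGrp N z ↔ z ∈ comGrp N g := by
  rw [comGrp, comGrp, Subgroup.mem_comap, Subgroup.mem_comap,
    Subgroup.mem_centralizer_singleton_iff, Subgroup.mem_centralizer_singleton_iff]
  exact eq_comm

theorem le_comGrp {z : A} : N ≤ comGrp N z := by
  intro n hn
  rw [mem_comGrp]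
  exact N.mul_mem (Subgroup.Normal.conj_mem inferInstance n hn z) (N.inv_mem hn)

theorem mem_cenGrp {z : A} : z ∈ cenGrp N ↔ Cen N z := by
  rw [cenGrp, Subgroup.mem_comap, Subgroup.mem_center_iff]
  constructor
  · intro h g
    refine mem_comGrp.1 ?_
    rw [comGrp, Subgroup.mem_comap, Subgroup.mem_centralizer_singleton_iff]
    exact h _
  · intro h g
    obtain ⟨g, rfl⟩ := QuotientGroup.mk'_surjective N g
    have := mem_comGrp.2 (h g)
    rw [comGrp, Subgroup.mem_comap, Subgroup.mem_centralizer_singleton_iff] at this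
    exact this

theorem le_cenGrp : N ≤ cenGrp N := fun _ hn => mem_cenGrp.2 fun g => by
  have h : g ∈ comGrp N _ := mem_comGrp_symm.1 (le_comGrp hn)
  exact mem_comGrp.1 h

omit [N.Normal] in
/-- The conjugates of an element which is central modulo `N` are congruent to it. -/
theorem Cen.conj {z : A} (hz : Cen N z) (y : A) : (y * z * y⁻¹) * z⁻¹ ∈ N := by
  have h := N.inv_mem (hz y)
  have e : (z * y * z⁻¹ * y⁻¹)⁻¹ = y * z * y⁻¹ * z⁻¹ := by group
  rwa [e] at h

/-- A conjugate of an element which is central modulo `N` is central modulo `N`. -/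
theorem Cen.conj' {z : A} (hz : Cen N z) (y : A) : Cen N (y * z * y⁻¹) := by
  rw [← mem_cenGrp] at hz ⊢
  have h : (y * z * y⁻¹) * z⁻¹ ∈ cenGrp N := le_cenGrp ((mem_cenGrp.1 hz).conj y)
  have e : y * z * y⁻¹ = (y * z * y⁻¹) * z⁻¹ * z := by group
  rw [e]
  exact (cenGrp N).mul_mem h hz

variable {cl : A →* Θ} {H : ι → Subgroup A} {P : Subgroup A}

omit [N.Normal] in
/-- If two elements of `H` have the same class, they are congruent modulo `N`. -/
theorem congr_of_cl {H : Subgroup A} (ha : ∀ z ∈ H, cl z = 1 → z ∈ N) {z w : A} (hz : z ∈ H)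
    (hw : w ∈ H) (h : cl z = cl w) : z * w⁻¹ ∈ N :=
  ha _ (H.mul_mem hz (H.inv_mem hw)) (by rw [map_mul, map_inv, h, mul_inv_cancel])

/-- Two elements of `N ⊔ H` commute modulo `N`. -/
theorem comm_aux {H : Subgroup A} (ha : ∀ z ∈ H, cl z = 1 → z ∈ N) {z w : A} (hz : z ∈ N ⊔ H)
    (hw : w ∈ N ⊔ H) : w ∈ comGrp N z := by
  have key : ∀ {z w : A}, z ∈ H → w ∈ H → w ∈ comGrp N z := by
    intro z w hz hw
    rw [mem_comGrp]
    refine ha _ (H.mul_mem (H.mul_mem (H.mul_mem hz hw) (H.inv_mem hz)) (H.inv_mem hw)) ?_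
    rw [map_mul, map_mul, map_mul, map_inv, map_inv, mul_comm (cl z) (cl w), mul_assoc (cl w),
      mul_inv_cancel, mul_one, mul_inv_cancel]
  have h1 : ∀ {z : A}, z ∈ H → N ⊔ H ≤ comGrp N z := fun hz =>
    sup_le le_comGrp fun w hw => key hz hw
  have h2 : N ⊔ H ≤ comGrp N w :=
    sup_le le_comGrp fun u hu => mem_comGrp_symm.1 (h1 hu hw)
  exact mem_comGrp_symm.1 (h2 hz)

/-- **(3) of the proof**: the stabiliser of the standard plane is central modulo `N`. -/
theorem cen (ha : ∀ i, ∀ z ∈ H i, cl z = 1 → z ∈ N) (hb : ∀ i, P ≤ N ⊔ H i) [Nonempty ι]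
    (hc : P ⊔ ⨆ i, H i = ⊤) {z : A} (hz : z ∈ P) : Cen N z := by
  have h1 : ∀ i, H i ≤ comGrp N z := fun i w hw =>
    comm_aux (ha i) (hb i hz) (le_sup_right (a := N) hw)
  have h2 : P ≤ comGrp N z := fun w hw =>
    comm_aux (ha (Classical.arbitrary ι)) (hb _ hz) (hb _ hw)
  have h3 : (⊤ : Subgroup A) ≤ comGrp N z := by
    rw [← hc]
    exact sup_le h2 (iSup_le h1)
  intro g
  exact mem_comGrp.1 (h3 (Subgroup.mem_top g))

/-- **The end of the proof.** -/
theorem fin (ha : ∀ i, ∀ z ∈ H i, cl z = 1 → z ∈ N) (hb : ∀ i, P ≤ N ⊔ H i)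
    (hc : P ⊔ ⨆ i, H i = ⊤) (hN : N ≤ cl.ker) (i₀ : ι) (hd : ∀ i, H i ≤ N ⊔ H i₀)
    {g : A} (hg : cl g = 1) : g ∈ N := by
  have h2 : g ∈ N ⊔ H i₀ := by
    have : (⊤ : Subgroup A) ≤ N ⊔ H i₀ := by
      rw [← hc]
      exact sup_le (hb i₀) (iSup_le hd)
    exact this (Subgroup.mem_top g)
  rw [← SetLike.mem_coe, Subgroup.normal_mul] at h2
  obtain ⟨n, hn, z, hz, rfl⟩ := h2
  have h3 : cl z = 1 := by
    have e1 : cl n = 1 := hN hn
    rw [map_mul, e1, one_mul] at hg
    exact hg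
  exact N.mul_mem hn (ha i₀ z hz h3)

end

end Vale.Agent.P011.D4X
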