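import Vale.Agent.P011.D4X.Defs
import Vale.Agent.P011.D4X.H493.Nbr

/-!
Block D4X: the quaternion algebra `Q₁`, the elements `z(x₀, x; s)`, the subgroup generated by the
centralisers, good parameters.
-/

open NumberField Topology

namespace Vale.Agent.P011.D4X

open Vale.Agent.P011.MPQ Vale.Agent.P011.D4 Vale.Agent.P011.D4.Oct Vale.Agent.P011.E6

section

variable {k L E : Type} [Field k] [Field L] [Field E] [Algebra k L] [Algebra k E] [Algebra L E]
  [IsScalarTower k L E]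

/-- The scalar `r = q · q ρ(q)` with `J ∘ J = r`. -/
def rr (ρ : E ≃ₐ[k] E) (q : Lˣ) : E :=
  algebraMap L E (q : L) * (algebraMap L E (q : L) * ρ (algebraMap L E (q : L)))

/-- The embedding of `Q₁ = (a, q b)` over `L` into the quaternion algebra over `E`:
`i ↦ i`, `j ↦ m j`. -/
def psiL (α : E) (q : Lˣ) {a b : kˣ} (x : Qt (up L a) (q * up L b)) : Qt (up E a) (up E b) :=
  ⟨algebraMap L E x.re, algebraMap L E x.imI,
    (algebraMap L E (q : L) * (algebraMap L E x.imJ + algebraMap L E x.imK * α) +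
      (algebraMap L E x.imJ - algebraMap L E x.imK * α)) / 2,
    (algebraMap L E (q : L) * (algebraMap L E x.imJ + algebraMap L E x.imK * α) -
      (algebraMap L E x.imJ - algebraMap L E x.imK * α)) / (2 * α)⟩

/-- The underlying map of `z(x₀, x; s)`:
`(y₀, y₁) ↦ (X y₀ star (ρ² X), (ν ρ²ν / s) x₀ y₁ star (ρ X))`, `X = psiL x`, `ν = nrd x`. -/
def zF (ρ : E ≃ₐ[k] E) (ρL : L ≃ₐ[k] L) (α : E) (q : Lˣ) {a b c : kˣ} (x0 : Qt a b)
    (x : Qt (up L a) (q * up L b)) (s : kˣ) (y : OctL E a b c) : OctL E a b c :=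
  ⟨psiL α q x * y.fst * star (qmap ρ (qmap ρ (psiL α q x))),
    (algebraMap L E (nrd x * ρL (ρL (nrd x))) / algebraMap k E (s : k)) •
      (qup E x0 * y.snd * star (qmap ρ (psiL α q x)))⟩

variable [NeZero (2 : E)]

/-- The subgroup generated by the centralisers of the involutions of the standard plane. -/
def stabs (ρ σ : E ≃ₐ[k] E) (α : E) (a b c : kˣ) (q : Lˣ) : Subgroup (AT ρ σ α a b c q) :=
  Subgroup.closure {z | ∃ (b' c' : kˣ) (j l : Oct a b c) (h : Trip a b' c' gi j l),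
    z ∈ stab ρ σ α q h}

end

/-- The quadratic extension `k(√D)` embeds in `(a, b)`, and `L(√D)` splits `(a, q)`. -/
def GoodD {k L : Type} [Field k] [Field L] [Algebra k L] (a b : kˣ) (q : Lˣ) (D : k) : Prop :=
  D ≠ 0 ∧ (∃ w : Qt a b, w.re = 0 ∧ w * w = D • 1) ∧
    (∃ w : Qt (up L a) q, w.re = 0 ∧ w * w = algebraMap k L D • 1) ∧
    (∃ w : Qt (up L a) (q * up L b), w.re = 0 ∧ w * w = algebraMap k L D • 1) ∧
    ∀ τ : k →+* ℝ, τ D < 0 → τ (a : k) < 0

end Vale.Agent.P011.D4X
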